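import Vale.Agent.P284.H553.R6.VS
import Vale.Agent.P284.H451.D.Cone
import Vale.Agent.P284.H221.Rk

/-!
# P284 (helper494), project D: the entire map `F_a = s_a(f) (f^* φ)^k`
-/

open scoped Manifold ContDiff Topology
open Filter Set

noncomputable section

namespace Vale.Agent.P284.H494.D

open Vale.Agent.P272.K Vale.Agent.P284.H248 Vale.Agent.P284.H221 Vale.Agent.P284.H553.R6

/-- `[F]` is an immersion if the ratios of the components are -/
theorem LF_of_ratio {R : ℕ} {F : Cm R → Cm (R + 1)} {z : Cm R} (hF : AnalyticAt ℂ F z)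
    (h0 : F z 0 ≠ 0)
    (hs : Function.Surjective (fderiv ℂ (fun z' => fun a : Fin R => F z' a.succ / F z' 0) z)) :
    Function.Surjective (H451.D.LF F z) := by
  have hFa : ∀ a, AnalyticAt ℂ (fun z' => F z' a) z := fun a => analyticAt_pi_iff.1 hF a
  have hta : ∀ a : Fin R, AnalyticAt ℂ (fun z' => F z' a.succ / F z' 0) z := fun a =>
    (hFa a.succ).div (hFa 0) h0
  have ht : AnalyticAt ℂ (fun z' => fun a : Fin R => F z' a.succ / F z' 0) z :=
    analyticAt_pi_iff.2 hta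
  have hFc : ∀ ξ a, fderiv ℂ F z ξ a = fderiv ℂ (fun z' => F z' a) z ξ := by
    intro ξ a
    rw [fderiv_apply (𝕜 := ℂ) hF.differentiableAt a]
    rfl
  have htc : ∀ ξ (a : Fin R), fderiv ℂ (fun z' => fun a : Fin R => F z' a.succ / F z' 0) z ξ a =
      fderiv ℂ (fun z' => F z' a.succ / F z' 0) z ξ := by
    intro ξ a
    rw [fderiv_apply (𝕜 := ℂ) ht.differentiableAt a]
    rfl
  have hmul : ∀ ξ (a : Fin R), fderiv ℂ (fun z' => F z' a.succ) z ξ =
      F z a.succ / F z 0 * fderiv ℂ (fun z' => F z' 0) z ξ +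
        F z 0 * fderiv ℂ (fun z' => F z' a.succ / F z' 0) z ξ := by
    intro ξ a
    have h1 : (fun z' => F z' a.succ) =ᶠ[𝓝 z] fun z' => F z' a.succ / F z' 0 * F z' 0 := by
      filter_upwards [(hFa 0).continuousAt.eventually_ne h0] with z' hz'
      rw [div_mul_cancel₀ _ hz']
    rw [h1.fderiv_eq]
    have h2 := ((hta a).differentiableAt.hasFDerivAt.mul
      (hFa 0).differentiableAt.hasFDerivAt).fderiv
    have h3 : (fun z' => F z' a.succ / F z' 0 * F z' 0) =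
      (fun z' => F z' a.succ / F z' 0) * fun z' => F z' 0 := rfl
    rw [h3, h2]
    simp only [add_apply, smul_apply, smul_eq_mul]
  intro Y
  obtain ⟨ξ, hξ⟩ := hs fun a => (Y a.succ - F z a.succ / F z 0 * Y 0) / F z 0
  refine ⟨((Y 0 - fderiv ℂ (fun z' => F z' 0) z ξ) / F z 0, ξ), ?_⟩
  funext l
  rw [H451.D.LF_apply]
  simp only [Pi.add_apply, Pi.smul_apply, smul_eq_mul]
  rw [hFc]
  refine Fin.cases ?_ (fun a => ?_) l
  · field_simp
    ring
  · rw [hmul, ← htc, hξ]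
    field_simp
    ring

variable {n R k : ℕ} {X : Type} [TopologicalSpace X] [ChartedSpace (Cm n) X] {L : LineBundle n X}

/-- the coefficient of the pulled back form `f^* φ(t_i)`, computed in the chart `e` -/
def bc (φ : Mor L R) (f : Cm R → X) (i : L.ι) (e : Chart n X) (z : Cm R) : ℂ :=
  φ.form i e (e (f z)) fun j => fderiv ℂ (fun z' => e (f z')) z (Pi.single j 1)

/-- the map `F_a = s_a(f) (f^* φ)^k` -/
def FF (s : Fin (R + 1) → Sec L k) (φ : Mor L R) (f : Cm R → X) (z : Cm R) : Cm (R + 1) := fun a =>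
  (s a).f (ixL L (f z)) (f z) * bc φ f (ixL L (f z)) (chartAt (Cm n) (f z)) z ^ k

/-- change of frame -/
theorem bc_frame (φ : Mor L R) (f : Cm R → X) {i j : L.ι} {e : Chart n X} {z : Cm R}
    (he : At e (f z)) (hi : f z ∈ L.U i) (hj : f z ∈ L.U j) :
    bc φ f j e z = L.g i j (f z) * bc φ f i e z := by
  unfold bc
  rw [φ.glue i j e (f z) he hi hj]
  rfl

variable [IsManifold 𝓘(ℂ, Cm n) ω X]

/-- change of chart -/
theorem bc_chart (φ : Mor L R) {f : Cm R → X} (hf : ContMDiff 𝓘(ℂ, Cm R) 𝓘(ℂ, Cm n) ω f)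
    {i : L.ι} {e e' : Chart n X} {z : Cm R} (he : At e (f z)) (he' : At e' (f z))
    (hi : f z ∈ L.U i) : bc φ f i e z = bc φ f i e' z := by
  unfold bc
  rw [φ.change i e e' (f z) he he' hi, AlternatingMap.compLinearMap_apply]
  congr 1
  funext j
  have h1 : (fun ξ => e' (f ξ)) =ᶠ[𝓝 z] fun ξ => e' (e.symm (e (f ξ))) := by
    filter_upwards [hf.continuous.continuousAt.eventually (e.open_source.mem_nhds he.2)] with ξ hξ
    rw [e.left_inv hξ]
  rw [h1.fderiv_eq]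
  have h2 := fderiv_comp (𝕜 := ℂ) z (g := fun z => e' (e.symm z)) (f := fun ξ => e (f ξ))
    (transition_differentiableAt he he') (chart_comp_analytic hf he).differentiableAt
  have h3 : (fun ξ => e' (e.symm (e (f ξ)))) = (fun z => e' (e.symm z)) ∘ fun ξ => e (f ξ) := rfl
  rw [h3, h2]
  rfl

/-- the map in any frame and chart -/
theorem FF_eq (s : Fin (R + 1) → Sec L k) (φ : Mor L R) {f : Cm R → X}
    (hf : ContMDiff 𝓘(ℂ, Cm R) 𝓘(ℂ, Cm n) ω f) {i : L.ι} {e : Chart n X} {z : Cm R}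
    (he : At e (f z)) (hi : f z ∈ L.U i) (a : Fin (R + 1)) :
    FF s φ f z a = (s a).f i (f z) * bc φ f i e z ^ k := by
  have h0 := ixL_mem L (f z)
  have hc : At (chartAt (Cm n) (f z)) (f z) := ⟨chart_mem_atlas _ _, mem_chart_source _ _⟩
  unfold FF
  rw [bc_chart φ hf hc he h0, (s a).change _ _ (f z) h0 hi, bc_frame φ f he h0 hi, mul_pow]
  ring

theorem bc_an (φ : Mor L R) {f : Cm R → X} (hf : ContMDiff 𝓘(ℂ, Cm R) 𝓘(ℂ, Cm n) ω f)
    {i : L.ι} {e : Chart n X} {z : Cm R} (he : At e (f z)) (hi : f z ∈ L.U i) :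
    AnalyticAt ℂ (bc φ f i e) z := by
  have h1 := chart_comp_analytic hf he
  have h2 : AnalyticAt ℂ (fun z' => (fun j : Fin R =>
      fderiv ℂ (fun z' => e (f z')) z' (Pi.single j 1) : Fin R → Cm n)) z := by
    refine analyticAt_pi_iff.2 fun j => ?_
    exact ((ContinuousLinearMap.apply ℂ (Cm n) (Pi.single j (1 : ℂ) : Cm R)).analyticAt _).comp
      h1.fderiv
  exact AnalyticAt.comp (g := fun x : Cm n × (Fin R → Cm n) => φ.form i e x.1 x.2)
    (f := fun z' => (e (f z'), fun j : Fin R =>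
      fderiv ℂ (fun z' => e (f z')) z' (Pi.single j 1))) (x := z) (form_an φ he hi _) (h1.prod h2)

omit [IsManifold 𝓘(ℂ, Cm n) ω X] in
/-- charts and frames are fixed near `z` -/
theorem ev_fix {f : Cm R → X} (hf : ContMDiff 𝓘(ℂ, Cm R) 𝓘(ℂ, Cm n) ω f) {i : L.ι}
    {e : Chart n X} {z : Cm R} (he : At e (f z)) (hi : f z ∈ L.U i) :
    ∀ᶠ z' in 𝓝 z, At e (f z') ∧ f z' ∈ L.U i := by
  filter_upwards [hf.continuous.continuousAt.eventually (e.open_source.mem_nhds he.2),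
    hf.continuous.continuousAt.eventually ((L.isOpen i).mem_nhds hi)] with z' h1 h2
  exact ⟨⟨he.1, h1⟩, h2⟩

theorem sec_an (s : Sec L k) {f : Cm R → X} (hf : ContMDiff 𝓘(ℂ, Cm R) 𝓘(ℂ, Cm n) ω f)
    {i : L.ι} {e : Chart n X} {z : Cm R} (he : At e (f z)) (hi : f z ∈ L.U i) :
    AnalyticAt ℂ (fun z' => s.f i (f z')) z := by
  have h1 := chart_comp_analytic hf he
  have h2 : AnalyticAt ℂ (fun y => s.f i (e.symm y)) (e (f z)) := (s.holo i e _ he hi).analyticAt
  have h3 : AnalyticAt ℂ (fun z' => s.f i (e.symm (e (f z')))) z :=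
    AnalyticAt.comp (g := fun y => s.f i (e.symm y)) (f := fun z' => e (f z')) (x := z) h2 h1
  refine h3.congr ?_
  filter_upwards [ev_fix hf he hi] with z' hz'
  rw [hz'.1.left_inv]

/-- `F` is entire -/
theorem FF_an (s : Fin (R + 1) → Sec L k) (φ : Mor L R) {f : Cm R → X}
    (hf : ContMDiff 𝓘(ℂ, Cm R) 𝓘(ℂ, Cm n) ω f) (z : Cm R) : AnalyticAt ℂ (FF s φ f) z := by
  obtain ⟨i, hi⟩ := L.cover (f z)
  have he : At (chartAt (Cm n) (f z)) (f z) := ⟨chart_mem_atlas _ _, mem_chart_source _ _⟩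
  refine analyticAt_pi_iff.2 fun a => ?_
  refine ((sec_an (s a) hf he hi).mul ((bc_an φ hf he hi).pow k)).congr ?_
  filter_upwards [ev_fix hf he hi] with z' hz'
  exact (FF_eq s φ hf hz'.1 hz'.2 a).symm

/-- the ratios of the components are the ratios of the sections -/
theorem FF_ratio (s : Fin (R + 1) → Sec L k) (φ : Mor L R) {f : Cm R → X}
    (hf : ContMDiff 𝓘(ℂ, Cm R) 𝓘(ℂ, Cm n) ω f) {i : L.ι} {e : Chart n X} {z : Cm R}
    (he : At e (f z)) (hi : f z ∈ L.U i) (hb : bc φ f i e z ≠ 0) (a b : Fin (R + 1)) :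
    FF s φ f z a / FF s φ f z b = (s a).f i (f z) / (s b).f i (f z) := by
  rw [FF_eq s φ hf he hi, FF_eq s φ hf he hi, mul_div_mul_right _ _ (pow_ne_zero k hb)]

/-- **rank**: `[F]` is an immersion at the points where the ratios of the sections are, and the form
does not vanish -/
theorem FF_LF (s : Fin (R + 1) → Sec L k) (φ : Mor L R) {f : Cm R → X}
    (hf : ContMDiff 𝓘(ℂ, Cm R) 𝓘(ℂ, Cm n) ω f) {i : L.ι} {e : Chart n X} {z : Cm R}
    (he : At e (f z)) (hi : f z ∈ L.U i) (hb : bc φ f i e z ≠ 0) (hs : (s 0).f i (f z) ≠ 0)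
    (hsurj : Function.Surjective (fderiv ℂ (fun z' => fun a : Fin R =>
      (s a.succ).f i (f z') / (s 0).f i (f z')) z)) :
    FF s φ f z 0 ≠ 0 ∧ Function.Surjective (H451.D.LF (FF s φ f) z) := by
  have h0 : FF s φ f z 0 ≠ 0 := by
    rw [FF_eq s φ hf he hi]
    exact mul_ne_zero hs (pow_ne_zero k hb)
  refine ⟨h0, LF_of_ratio (FF_an s φ hf z) h0 ?_⟩
  have h1 : (fun z' => fun a : Fin R => FF s φ f z' a.succ / FF s φ f z' 0) =ᶠ[𝓝 z]
      fun z' => fun a : Fin R => (s a.succ).f i (f z') / (s 0).f i (f z') := by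
    filter_upwards [ev_fix hf he hi, (bc_an φ hf he hi).continuousAt.eventually_ne hb] with z' h2 h3
    funext a
    exact FF_ratio s φ hf h2.1 h2.2 h3 _ _
  rw [h1.fderiv_eq]
  exact hsurj

omit [IsManifold 𝓘(ℂ, Cm n) ω X] in
/-- affine slices -/
theorem slice_contMDiff {N : ℕ} {Φ : Cm N → X} (hΦ : ContMDiff 𝓘(ℂ, Cm N) 𝓘(ℂ, Cm n) ω Φ)
    (ζ : Cm N) (A : Cm R →L[ℂ] Cm N) :
    ContMDiff 𝓘(ℂ, Cm R) 𝓘(ℂ, Cm n) ω (fun z => Φ (ζ + A z)) := by
  have h1 : ContDiff ℂ ω (fun z : Cm R => ζ + A z) := contDiff_const.add A.contDiff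
  exact hΦ.comp h1.contMDiff

/-- an affine slice with prescribed derivative at the centre -/
theorem slice {N : ℕ} {Φ : Cm N → X} (hΦ : ContMDiff 𝓘(ℂ, Cm N) 𝓘(ℂ, Cm n) ω Φ)
    {ζ : Cm N} (h : RkAt n Φ ζ) {e : Chart n X} (he : At e (Φ ζ)) (E : Fin R → Cm n) :
    ∃ f : Cm R → X, ContMDiff 𝓘(ℂ, Cm R) 𝓘(ℂ, Cm n) ω f ∧ f 0 = Φ ζ ∧
      ∀ j, fderiv ℂ (fun z => e (f z)) 0 (Pi.single j 1) = E j := by
  have hsurj := h.surjective hΦ he
  choose v hv using fun j => hsurj (E j)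
  set A : Cm R →L[ℂ] Cm N := ∑ j, (ContinuousLinearMap.proj (R := ℂ) (φ := fun _ : Fin R => ℂ)
    j).smulRight (v j) with hA
  have hAj : ∀ j, A (Pi.single j 1) = v j := by
    intro j
    rw [hA, _root_.sum_apply, Finset.sum_eq_single j]
    · simp
    · intro b _ hb
      simp [hb]
    · intro hj
      exact absurd (Finset.mem_univ j) hj
  refine ⟨fun z => Φ (ζ + A z), slice_contMDiff hΦ ζ A, by simp, fun j => ?_⟩
  have h1 : HasFDerivAt (fun z : Cm R => ζ + A z) A 0 := A.hasFDerivAt.const_add ζ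
  have h2 : HasFDerivAt (fun ξ => e (Φ ξ)) (fderiv ℂ (fun ξ => e (Φ ξ)) ζ) (ζ + A 0) := by
    rw [map_zero, add_zero]
    exact (chart_comp_analytic hΦ he).differentiableAt.hasFDerivAt
  have h3 := (h2.comp (0 : Cm R) h1).fderiv
  have h4 : (fun z => e (Φ (ζ + A z))) = (fun ξ => e (Φ ξ)) ∘ fun z => ζ + A z := rfl
  rw [h4, h3, ContinuousLinearMap.comp_apply, hAj, hv]

end Vale.Agent.P284.H494.D
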